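import Vale.Agent.P057H.Defs
import Mathlib.Analysis.PSeries

/-! The weighted form of the conjecture on sums of reciprocals. -/

set_option linter.all false

open Finset
open scoped BigOperators Classical

namespace Vale.Agent.P057H.H56

theorem two_pow_sum (f : ℕ → ℝ) (J : ℕ) :
    ∑ i ∈ range (2 ^ J), f i = f 0 + ∑ j ∈ range J, ∑ i ∈ Ico (2 ^ j) (2 ^ (j + 1)), f i := by
  induction J with
  | zero => simp
  | succ J ih =>
    rw [sum_range_succ, ← add_assoc, ← ih, sum_range_add_sum_Ico]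
    exact Nat.pow_le_pow_right (by norm_num) (by omega)

theorem summable_blocks (f : ℕ → ℝ) (h0 : ∀ n, 0 ≤ f n)
    (h : Summable fun j => ∑ i ∈ Ico (2 ^ j) (2 ^ (j + 1)), f i) : Summable f := by
  refine summable_of_sum_range_le h0 (c := f 0 + ∑' j, ∑ i ∈ Ico (2 ^ j) (2 ^ (j + 1)), f i)
    fun n => ?_
  refine (sum_le_sum_of_subset_of_nonneg (range_mono (Nat.lt_two_pow_self (n := n)).le)
    fun i _ _ => h0 i).trans ?_
  rw [two_pow_sum]
  exact add_le_add le_rfl (h.sum_le_tsum _ fun j _ => sum_nonneg fun i _ => h0 i)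

/-- the weighted form -/
theorem weighted (h : RESULT) (k : ℕ) (hk : 3 ≤ k) : ∃ c : ℝ, 0 < c ∧ ∀ A : Set ℕ,
    (∀ a ∈ A, 0 < a) →
    ¬ Summable (fun a : A => (1 : ℝ) / (((a : ℕ) : ℝ) * Real.log (((a : ℕ) : ℝ) + 1) ^ (1 - c))) →
    ∃ a d : ℕ, 0 < d ∧ ∀ i : ℕ, i < k → a + i * d ∈ A := by
  obtain ⟨c, hc, N₀, h⟩ := h k hk
  obtain ⟨e, e0, e1, e2⟩ : ∃ e : ℝ, 0 < e ∧ 2 * e ≤ c ∧ 2 * e ≤ 1 :=
    ⟨min c 1 / 2, by positivity, by linarith [min_le_left c 1], by linarith [min_le_right c 1]⟩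
  refine ⟨e, e0, fun A _ hA => ?_⟩
  by_contra hn
  set w : ℕ → ℝ := fun a => 1 / ((a : ℝ) * Real.log ((a : ℝ) + 1) ^ (1 - e)) with hw
  have w0 : ∀ a, 0 ≤ w a := fun a => by
    have : 0 ≤ Real.log ((a : ℝ) + 1) := Real.log_nonneg (by linarith [Nat.cast_nonneg (α := ℝ) a])
    positivity
  have l2 := Real.log_two_gt_d9
  refine hA (((summable_blocks (fun a => if a ∈ A then w a else 0)
    (fun a => by split_ifs; exacts [w0 a, le_rfl]) ?_).subtype A).congr fun a => if_pos a.2)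
  rw [← summable_nat_add_iff (N₀ + 2)]
  refine .of_nonneg_of_le (fun j => sum_nonneg fun a _ => by split_ifs; exacts [w0 a, le_rfl])
    (fun j => ?_) (((summable_nat_add_iff (N₀ + 2)).2 (Real.summable_nat_rpow_inv.2
      (by linarith : 1 < 1 + e))).mul_left (2 / Real.log 2 ^ (1 + e)))
  set J := j + (N₀ + 2) with hJ
  have J2 : (2 : ℝ) ≤ J := by exact_mod_cast (by omega : 2 ≤ J)
  have t1 : 1 ≤ J * Real.log 2 := by nlinarith
  have h1 := h (2 ^ (J + 1)) ((by omega : N₀ ≤ J + 1).trans Nat.lt_two_pow_self.le) _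
    (filter_subset (· ∈ A) _) fun a d hd k => hn ⟨a, d, hd, fun i hi => (mem_filter.1 (k i hi)).2⟩
  rw [Nat.cast_pow, Real.log_pow, Nat.cast_ofNat] at h1
  have h2 : (J * Real.log 2) ^ (2 * e) ≤ (((J + 1 : ℕ) : ℝ) * Real.log 2) ^ c := by
    refine (Real.rpow_le_rpow_of_exponent_le t1 e1).trans
      (Real.rpow_le_rpow (by linarith) ?_ hc.le)
    push_cast
    nlinarith
  have p1 : 0 < (J * Real.log 2) ^ (2 * e) := Real.rpow_pos_of_pos (by linarith) _
  have p2 : 0 < (J * Real.log 2) ^ (1 - e) := Real.rpow_pos_of_pos (by linarith) _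
  have h3 := h1.trans (div_le_div_of_nonneg_left (by positivity) p1 h2)
  have h4 : ∑ a ∈ Ico (2 ^ J) (2 ^ (J + 1)), (if a ∈ A then w a else 0) ≤
      (((Icc 1 (2 ^ (J + 1))).filter (· ∈ A)).card : ℝ) *
        (1 / (2 ^ J * (J * Real.log 2) ^ (1 - e))) := by
    rw [← sum_filter, ← nsmul_eq_mul]
    refine le_trans (sum_le_card_nsmul _ _ _ fun a ha => ?_) (nsmul_le_nsmul_left (by positivity)
      (card_le_card fun a ha => ?_))
    · have a1 : (2 : ℝ) ^ J ≤ a := by exact_mod_cast (mem_Ico.1 (mem_filter.1 ha).1).1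
      have a2 : J * Real.log 2 ≤ Real.log ((a : ℝ) + 1) := by
        rw [← Real.log_pow]
        exact Real.log_le_log (by positivity) (by linarith)
      refine one_div_le_one_div_of_le (by positivity) (mul_le_mul a1
        (Real.rpow_le_rpow (by linarith) a2 (by linarith)) p2.le (Nat.cast_nonneg _))
    · have a1 := mem_Ico.1 (mem_filter.1 ha).1
      have : 1 ≤ 2 ^ J := Nat.one_le_two_pow
      exact mem_filter.2 ⟨mem_Icc.2 ⟨by omega, a1.2.le⟩, (mem_filter.1 ha).2⟩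
  refine h4.trans ((mul_le_mul_of_nonneg_right h3 (by positivity)).trans (le_of_eq ?_))
  have h5 : (J * Real.log 2) ^ (2 * e) * (J * Real.log 2) ^ (1 - e) =
      (J : ℝ) ^ (1 + e) * Real.log 2 ^ (1 + e) := by
    rw [← Real.rpow_add (by linarith), ← Real.mul_rpow (by linarith) (by linarith)]
    congr 1
    ring
  have p3 : 0 < (J : ℝ) ^ (1 + e) := Real.rpow_pos_of_pos (by linarith) _
  have p4 : 0 < Real.log 2 ^ (1 + e) := Real.rpow_pos_of_pos (by linarith) _
  rw [div_mul_div_comm, mul_left_comm, h5, pow_succ]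
  field_simp

end Vale.Agent.P057H.H56
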